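import Mathlib.Analysis.SpecialFunctions.Bernstein
import Mathlib.Topology.ContinuousMap.Compact
import Mathlib.Analysis.Calculus.ContDiff.Polynomial
import Mathlib.Topology.MetricSpace.HausdorffDimension
import Mathlib.Geometry.Manifold.Instances.Sphere
import Mathlib.Analysis.Normed.Module.Connected
import Mathlib.AlgebraicTopology.FundamentalGroupoid.SimplyConnected

/-!
# The spheres of dimension `≥ 2` are simply connected
-/

open Set Topology Metric unitInterval Module

namespace Vale.Agent.P216.B64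

section

variable {E : Type*} [NormedAddCommGroup E] [InnerProductSpace ℝ E]

/-- a point of the sphere from a non-zero vector -/
noncomputable def mkS (v : E) (h : v ≠ 0) : sphere (0 : E) 1 :=
  ⟨‖v‖⁻¹ • v, by simp [norm_smul, h]⟩

theorem mkS_of_norm {v : E} (h : v ≠ 0) (h1 : ‖v‖ = 1) : ((mkS v h : sphere (0 : E) 1) : E) = v := by
  simp [mkS, h1]

theorem seg_ne {a b : E} (ha : ‖a‖ = 1) (hab : ‖a - b‖ < 1) (s : I) :
    (1 - (s : ℝ)) • a + (s : ℝ) • b ≠ 0 := by
  intro h
  have h1 : a = (s : ℝ) • (a - b) := by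
    rw [sub_smul, one_smul] at h
    rw [smul_sub]
    have : a - (s : ℝ) • a + (s : ℝ) • b = 0 := h
    rw [← sub_eq_zero]
    rw [← this]
    abel
  have h2 : ‖a‖ ≤ ‖a - b‖ := by
    conv_lhs => rw [h1]
    rw [norm_smul, Real.norm_of_nonneg s.2.1]
    exact mul_le_of_le_one_left (norm_nonneg _) s.2.2
  linarith

/-- straight line homotopy on the sphere -/
theorem homotopic_of_close {x : sphere (0 : E) 1} (γ δ : Path x x) (P : C(I, E))
    (hP : ∀ t, ‖(γ t : E) - P t‖ < 1) (hP0 : P 0 = x) (hP1 : P 1 = x)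
    (hδ : ∀ t (h : P t ≠ 0), δ t = mkS (P t) h) : Path.Homotopic γ δ := by
  have hn : ∀ t, ‖(γ t : E)‖ = 1 := fun t => by simp
  have hx : ‖(x : E)‖ = 1 := by simp
  have hne : ∀ q : I × I, (1 - (q.1 : ℝ)) • (γ q.2 : E) + (q.1 : ℝ) • P q.2 ≠ 0 := fun q =>
    seg_ne (hn _) (hP _) _
  have hPne : ∀ t, P t ≠ 0 := fun t h => by
    have := hP t
    rw [h, sub_zero, hn t] at this
    exact lt_irrefl _ this
  have hxx : ∀ s : I, (1 - (s : ℝ)) • (x : E) + (s : ℝ) • (x : E) = x := fun s => by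
    rw [← add_smul, sub_add_cancel, one_smul]
  refine ⟨⟨⟨⟨fun q => mkS _ (hne q), ?_⟩, ?_, ?_⟩, ?_⟩⟩
  · refine Continuous.subtype_mk ?_ _
    have h1 : Continuous fun q : I × I =>
        (1 - (q.1 : ℝ)) • (γ q.2 : E) + (q.1 : ℝ) • P q.2 := by fun_prop
    exact (h1.norm.inv₀ fun q => norm_ne_zero_iff.2 (hne q)).smul h1
  · intro t
    apply Subtype.ext
    change ‖(1 - ((0 : I) : ℝ)) • (γ t : E) + ((0 : I) : ℝ) • P t‖⁻¹ •
      ((1 - ((0 : I) : ℝ)) • (γ t : E) + ((0 : I) : ℝ) • P t) = (γ t : E)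
    simp [hn t]
  · intro t
    refine Eq.trans ?_ (hδ t (hPne t)).symm
    apply Subtype.ext
    change ‖(1 - ((1 : I) : ℝ)) • (γ t : E) + ((1 : I) : ℝ) • P t‖⁻¹ •
      ((1 - ((1 : I) : ℝ)) • (γ t : E) + ((1 : I) : ℝ) • P t) = ‖P t‖⁻¹ • P t
    simp
  · intro s t ht
    apply Subtype.ext
    change ‖(1 - (s : ℝ)) • (γ t : E) + (s : ℝ) • P t‖⁻¹ •
      ((1 - (s : ℝ)) • (γ t : E) + (s : ℝ) • P t) = (γ t : E)
    rcases ht with rfl | ht
    · rw [hP0, γ.source, hxx, hx, inv_one, one_smul]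
    · have : t = 1 := ht
      rw [this, hP1, γ.target, hxx, hx, inv_one, one_smul]

/-- a loop which misses a point is contractible -/
theorem homotopic_refl_of_ne {x : sphere (0 : E) 1} (δ : Path x x) (p : sphere (0 : E) 1)
    (hp : ∀ t, δ t ≠ p) : Path.Homotopic δ (Path.refl x) := by
  have hv : ‖(p : E)‖ = 1 := by simp
  set ψ := stereographic hv with hψ
  have hs : ψ.source = {p}ᶜ := by
    rw [hψ, stereographic_source]
  have hm : ∀ t, δ t ∈ ψ.source := fun t => by
    rw [hs]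
    exact hp t
  have hx : x ∈ ψ.source := by
    have := hm 0
    rwa [δ.source] at this
  have hT : ψ.target = Set.univ := stereographic_target hv
  have hc : Continuous fun t => ψ (δ t) := by
    have h1 := ψ.continuousOn_toFun
    exact h1.comp_continuous δ.continuous hm
  have hc' : Continuous fun w => ψ.symm w := by
    have h1 := ψ.continuousOn_invFun
    rw [hT] at h1
    exact continuousOn_univ.1 h1
  refine ⟨⟨⟨⟨fun q => ψ.symm ((1 - (q.1 : ℝ)) • ψ (δ q.2) + (q.1 : ℝ) • ψ x), ?_⟩, ?_, ?_⟩, ?_⟩⟩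
  · apply hc'.comp
    have h2 : Continuous fun q : I × I => ψ (δ q.2) := hc.comp continuous_snd
    have h3 : Continuous fun q : I × I => (q.1 : ℝ) := by fun_prop
    exact ((continuous_const.sub h3).smul h2).add (h3.smul continuous_const)
  · intro t
    change ψ.symm ((1 - ((0 : I) : ℝ)) • ψ (δ t) + ((0 : I) : ℝ) • ψ x) = δ t
    simp only [Icc.coe_zero, sub_zero, one_smul, zero_smul, add_zero]
    exact ψ.left_inv (hm t)
  · intro t
    change ψ.symm ((1 - ((1 : I) : ℝ)) • ψ (δ t) + ((1 : I) : ℝ) • ψ x) = x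
    simp only [Icc.coe_one, sub_self, one_smul, zero_smul, zero_add]
    exact ψ.left_inv hx
  · intro s t ht
    change ψ.symm ((1 - (s : ℝ)) • ψ (δ t) + (s : ℝ) • ψ x) = δ t
    have h0 : δ t = x := by
      rcases ht with rfl | ht
      · exact δ.source
      · have : t = 1 := ht
        rw [this, δ.target]
    rw [h0, ← add_smul, sub_add_cancel, one_smul]
    exact ψ.left_inv hx

/-- approximation by a path which misses a direction -/
theorem exists_approx_path [FiniteDimensional ℝ E] (h3 : 2 < finrank ℝ E) (γ : C(I, E)) {x : E}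
    (h0 : γ 0 = x) (h1 : γ 1 = x) : ∃ P : C(I, E), (∀ t, ‖γ t - P t‖ < 1) ∧ P 0 = x ∧ P 1 = x ∧
      ∃ v : E, v ≠ 0 ∧ ∀ t, ∀ r : ℝ, r • P t ≠ v := by
  obtain ⟨n, hn⟩ : ∃ n : ℕ, ‖bernsteinApproximation n γ - γ‖ < 1 / 4 := by
    have h := bernsteinApproximation_uniform γ
    rw [Metric.tendsto_atTop] at h
    obtain ⟨N, hN⟩ := h (1 / 4) (by norm_num)
    exact ⟨N, by rw [← dist_eq_norm]; exact hN N le_rfl⟩
  set Q := bernsteinApproximation n γ with hQ
  have hQt : ∀ t, ‖Q t - γ t‖ < 1 / 4 := fun t => by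
    have := (Q - γ).norm_coe_le_norm t
    rw [ContinuousMap.sub_apply] at this
    exact this.trans_lt hn
  let P : C(I, E) := ⟨fun t => Q t + ((1 - (t : ℝ)) • (x - Q 0) + (t : ℝ) • (x - Q 1)), by
    fun_prop⟩
  have hP : ∀ t, P t = Q t + ((1 - (t : ℝ)) • (x - Q 0) + (t : ℝ) • (x - Q 1)) := fun _ => rfl
  let F : ℝ × ℝ → E := fun q => q.1 • ((∑ ν : Fin (n + 1),
    ((n.choose ν : ℝ) * q.2 ^ (ν : ℕ) * (1 - q.2) ^ (n - ν)) • γ (bernstein.z ν)) +
      ((1 - q.2) • (x - Q 0) + q.2 • (x - Q 1)))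
  have hF : ContDiff ℝ 1 F := by
    refine contDiff_fst.smul (ContDiff.add (ContDiff.sum fun ν _ => ?_) ?_)
    · exact ((contDiff_const.mul (contDiff_snd.pow _)).mul
        ((contDiff_const.sub contDiff_snd).pow _)).smul contDiff_const
    · exact ((contDiff_const.sub contDiff_snd).smul contDiff_const).add
        (contDiff_snd.smul contDiff_const)
  have hd := hF.dense_compl_range_of_finrank_lt_finrank (by
    rw [finrank_prod, finrank_self]
    exact h3)
  have : Nonempty E := ⟨0⟩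
  obtain ⟨v, hv⟩ := hd.nonempty
  refine ⟨P, fun t => ?_, ?_, ?_, v, ?_, ?_⟩
  · have e1 := hQt t
    have e2 := hQt 0
    have e3 := hQt 1
    rw [h0] at e2
    rw [h1] at e3
    have e4 : γ t - P t = (γ t - Q t) + ((1 - (t : ℝ)) • (Q 0 - x) + (t : ℝ) • (Q 1 - x)) := by
      rw [hP]
      module
    rw [e4]
    have e5 : ‖(1 - (t : ℝ)) • (Q 0 - x)‖ ≤ (1 - t) * (1 / 4) := by
      rw [norm_smul, Real.norm_of_nonneg (by linarith [t.2.2])]
      exact mul_le_mul_of_nonneg_left e2.le (by linarith [t.2.2])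
    have e6 : ‖(t : ℝ) • (Q 1 - x)‖ ≤ t * (1 / 4) := by
      rw [norm_smul, Real.norm_of_nonneg t.2.1]
      exact mul_le_mul_of_nonneg_left e3.le t.2.1
    have e7 : ‖γ t - Q t‖ < 1 / 4 := by rwa [norm_sub_rev]
    have e8 := norm_add_le (γ t - Q t) ((1 - (t : ℝ)) • (Q 0 - x) + (t : ℝ) • (Q 1 - x))
    have e9 := norm_add_le ((1 - (t : ℝ)) • (Q 0 - x)) ((t : ℝ) • (Q 1 - x))
    linarith
  · rw [hP]
    simp
  · rw [hP]
    simp
  · rintro rfl
    exact hv ⟨(0, 0), by simp [F]⟩
  · intro t r hr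
    apply hv
    refine ⟨(r, (t : ℝ)), ?_⟩
    rw [← hr, hP, hQ, bernsteinApproximation.apply]
    simp only [F, bernstein_apply]
    rfl

end

/-- The sphere of dimension `n ≥ 2` is simply connected. -/
theorem simplyConnected_sphere {E : Type*} [NormedAddCommGroup E] [InnerProductSpace ℝ E]
    [FiniteDimensional ℝ E] (h3 : 2 < finrank ℝ E) :
    SimplyConnectedSpace (sphere (0 : E) 1) := by
  rw [simply_connected_iff_loops_nullhomotopic]
  constructor
  · exact isPathConnected_iff_pathConnectedSpace.1 (isPathConnected_sphere (by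
      rw [← finrank_eq_rank]
      exact_mod_cast (by omega : 1 < finrank ℝ E)) _ zero_le_one)
  · intro x γ
    obtain ⟨P, hP, h0, h1, v, hv, hv'⟩ := exists_approx_path h3
      (⟨fun t => (γ t : E), by fun_prop⟩ : C(I, E)) (x := x) (by simp) (by simp)
    have hn : ∀ t, ‖(γ t : E)‖ = 1 := fun t => by simp
    have hx : ‖(x : E)‖ = 1 := by simp
    have hPne : ∀ t, P t ≠ 0 := fun t h => by
      have := hP t
      rw [h, sub_zero] at this
      exact absurd (hn t) this.ne
    let δ : Path x x :=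
      { toFun := fun t => mkS (P t) (hPne t)
        continuous_toFun := Continuous.subtype_mk
          ((P.continuous.norm.inv₀ fun q => norm_ne_zero_iff.2 (hPne q)).smul P.continuous) _
        source' := by
          apply Subtype.ext
          change ‖P 0‖⁻¹ • P 0 = (x : E)
          rw [h0, hx, inv_one, one_smul]
        target' := by
          apply Subtype.ext
          change ‖P 1‖⁻¹ • P 1 = (x : E)
          rw [h1, hx, inv_one, one_smul] }
    have e1 : Path.Homotopic γ δ := homotopic_of_close γ δ P hP h0 h1 fun t _ => rfl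
    have e2 : Path.Homotopic δ (Path.refl x) := by
      refine homotopic_refl_of_ne δ (mkS v hv) fun t ht => ?_
      have h4 : ‖P t‖⁻¹ • P t = ‖v‖⁻¹ • v := congrArg Subtype.val ht
      have h5 : ‖v‖ ≠ 0 := norm_ne_zero_iff.2 hv
      apply hv' t (‖v‖ * ‖P t‖⁻¹)
      rw [mul_smul, h4, smul_smul, mul_inv_cancel₀ h5, one_smul]
    exact e1.trans e2

theorem simplyConnected_sph (n : ℕ) (hn : 2 ≤ n) :
    SimplyConnectedSpace (Metric.sphere (0 : EuclideanSpace ℝ (Fin (n + 1))) 1) :=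
  simplyConnected_sphere (by
    rw [finrank_euclideanSpace, Fintype.card_fin]
    omega)

theorem simplyConnected_of_homeo {X Y : Type*} [TopologicalSpace X] [TopologicalSpace Y]
    (e : X ≃ₜ Y) [SimplyConnectedSpace Y] : SimplyConnectedSpace X :=
  e.toHomotopyEquiv.simplyConnectedSpace

end Vale.Agent.P216.B64
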