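import Vale.Agent.P216.AS.Htpy
import Vale.Agent.P216.GM.Spec
import Vale.Agent.P216.H311.PathSp

/-!
# Theorem B of P216: the contracts between the groups of blocks

* `HU k X n`: cohomology of a set `X` without symmetries (`I = Empty`).
* `OmegaOut`: output of PATH/SWAP (block B38), input of WANG (B40).
* `XOut`: output of WANG/MV/SIGN (B44), input of the final instance (B22).
-/

open Set Topology BoundedContinuousFunction

namespace Vale.Agent.P216.B64

open AS L250 GM

/-- no symmetry -/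
abbrev a0 (E : Type) : Empty → E → E := fun e => e.elim

/-- no scalar -/
abbrev c0 (k : Type) : Empty → k := fun e => e.elim

section HU

variable (k : Type) [Field k] {E E' : Type} [PseudoMetricSpace E] [PseudoMetricSpace E']

/-- The cohomology of `X` (no symmetries). -/
abbrev HU (X : Set E) (n : ℕ) : Type := Ha (a0 E) (c0 k) X n

/-- Restriction. -/
abbrev hres {X Y : Set E} (h : Y ⊆ X) (n : ℕ) : HU k X n →ₗ[k] HU k Y n := res h n

/-- Uniformly continuous maps. -/
abbrev UMap (X : Set E) (X' : Set E') (f : E → E') : Prop := IsMap (a0 E) (a0 E') X X' f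

/-- Pullback. -/
abbrev hpull {X : Set E} {X' : Set E'} {f : E → E'} (h : UMap X X' f) (n : ℕ) :
    HU k X' n →ₗ[k] HU k X n := pull (c0 k) h n

/-- The class of the constant `1` in degree `0`. -/
noncomputable def hone (X : Set E) : HU k X 0 :=
  H.mk (fun _ => (1 : k)) (mem_Zc_abs.2 ⟨fun e => e.elim, 1, one_pos, fun x _ => by
    simp [P265.AS.d]⟩)

end HU

/-! ### OMEGA: path spaces of a manifold homeomorphic to the sphere of dimension `m + 1` -/

/-- The stable cohomology of the based Moore loops `P x₀ x₀ t` is spanned by classes `om j` of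
degree `j * m`, with the constant `B` (independent of the field); `om (j+1)` is born at most `B`
later, and at most `B` earlier, than `om j`. -/
structure OmegaOut (M : Type) [MetricSpace M] (m : ℕ) (x₀ : M) (B : ℝ) (k : Type) [Field k] where
  om : ∀ (j : ℕ) (t : ℝ), HU k (PS.P x₀ x₀ t) (j * m)
  res_om : ∀ j s t (h : s ≤ t), hres k (PS.P_mono h) (j * m) (om j t) = om j s
  /-- degree `0` and the degrees `j * m` -/
  span : ∀ j t, 0 ≤ t → ∀ (h : PS.P x₀ x₀ t ⊆ PS.P x₀ x₀ (t + B))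
    (z : HU k (PS.P x₀ x₀ (t + B)) (j * m)), ∃ c : k, hres k h (j * m) z = c • om j t
  /-- the other degrees -/
  zero : ∀ d, ¬ m ∣ d → ∀ t, 0 ≤ t → ∀ (h : PS.P x₀ x₀ t ⊆ PS.P x₀ x₀ (t + B))
    (z : HU k (PS.P x₀ x₀ (t + B)) d), hres k h d z = 0
  om_ne : ∀ t, 0 ≤ t → om 0 t ≠ 0
  up : ∀ j t, 0 ≤ t → om j (t + B) = 0 → om (j + 1) t = 0
  down : ∀ j t, 0 ≤ t → om (j + 1) (t + B) = 0 → om j t = 0

/-! ### XOUT: the stable cohomology of the free loop space of a sphere -/

/-- `x i` has degree `kk n i * (n - 1)`. -/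
def kk (n i : ℕ) : ℕ := if n % 2 = 1 then i + 1 else 2 * i + 1

/-- The degrees of the stable cohomology of the free loop space of the `n`-sphere
(characteristic not `2`). -/
def Deg (n q : ℕ) : Prop := q = 0 ∨ ∃ i, q = kk n i * (n - 1) ∨ q = kk n i * (n - 1) + 1

theorem umap_rev {M : Type} [MetricSpace M] (t : ℝ) :
    UMap (XL M t) (XL M t) (L250.rev : LM M → LM M) :=
  ⟨fun _ hg => rev_mem hg, fun e => e.elim, fun ε hε =>
    ⟨ε, hε, fun g _ g' _ h => by rwa [isometry_rev.dist_eq]⟩⟩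

/-- Reversal of based Moore loops of duration `t`. -/
def RevP {M : Type} [MetricSpace M] (t : ℝ) (f : (ℝ →ᵇ M) → (ℝ →ᵇ M)) : Prop :=
  ∀ w u, f w u = w (t - u)

/-- Signs: the reversal acts on `om j` by `(-1) ^ (j + m * (j * (j - 1) / 2))`. -/
def OmegaSign {M : Type} [MetricSpace M] {m : ℕ} {x₀ : M} {B : ℝ} {k : Type} [Field k]
    (O : OmegaOut M m x₀ B k) : Prop :=
  ∀ (f : (ℝ →ᵇ M) → (ℝ →ᵇ M)) (j : ℕ) (t : ℝ), 0 ≤ t → RevP t f →
    ∀ h : UMap (PS.P x₀ x₀ t) (PS.P x₀ x₀ t) f,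
    hpull k h (j * m) (O.om j t) = (-1 : k) ^ (j + m * (j * (j - 1) / 2)) • O.om j t

/-- Output of the topology of the free loop space, for one field. `g q t` generates the stable
cohomology of the sublevel `XL M t` in degree `q` (`0` if there is none). -/
structure XOut (M : Type) [MetricSpace M] (n : ℕ) (B : ℝ) (k : Type) [Field k] where
  g : ∀ (q : ℕ) (t : ℝ), HU k (XL M t) q
  res_g : ∀ q s t (h : s ≤ t), hres k (XL_mono h) q (g q t) = g q s
  span : ∀ q t, 0 ≤ t → ∀ (h : XL M t ⊆ XL M (t + B)) (z : HU k (XL M (t + B)) q),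
    ∃ c : k, hres k h q z = c • g q t
  g_zero : ∀ q t, ¬ Deg n q → g q t = 0
  /-- reversal -/
  rev_zero : ∀ t, hpull k (umap_rev t) 0 (g 0 t) = g 0 t
  rev_x : ∀ i t, hpull k (umap_rev t) _ (g (kk n i * (n - 1)) t) =
    (-1 : k) ^ (i + 1) • g (kk n i * (n - 1)) t
  rev_y : ∀ i t, hpull k (umap_rev t) _ (g (kk n i * (n - 1) + 1) t) =
    (-1 : k) ^ i • g (kk n i * (n - 1) + 1) t
  /-- births of the `x i` -/
  birth0 : ∀ t, B ≤ t → g (kk n 0 * (n - 1)) t ≠ 0
  birth : ∀ i t, 0 ≤ t → g (kk n i * (n - 1)) t ≠ 0 →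
    g (kk n (i + 1) * (n - 1)) (t + B) ≠ 0

end Vale.Agent.P216.B64
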