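import Vale.Agent.P216.B64.Contract
import Vale.Agent.P216.T695.EndB
import Vale.Agent.P216.Smooth.Geo
import Vale.Agent.P216.H319.Loc
import Vale.Agent.P216.H844.F4Fin
import Mathlib.Geometry.Manifold.Instances.Sphere

/-!
# Theorem B of P216: the goals of the groups and the skeleton of the main theorem
-/

open Set Topology Bundle Manifold
open scoped ContDiff
open Vale.Agent.P216.H494

namespace Vale.Agent.P216.B64

/-- The unit sphere of dimension `n`. -/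
abbrev Sph (n : ℕ) : Type := Metric.sphere (0 : EuclideanSpace ℝ (Fin (n + 1))) 1

/-- **B38 (PATH + SWAP).** -/
def OmegaGoal : Prop := ∀ n : ℕ, 3 ≤ n → ∀ (M : Type) [MetricSpace M] [CompactSpace M] (ρ : ℝ),
  0 < ρ → LS.UniqSeg M ρ → Nonempty (M ≃ₜ Sph n) → ∀ x₀ : M, ∃ B : ℝ, 0 < B ∧
  ∀ (k : Type) [Field k], (2 : k) ≠ 0 → ∃ O : OmegaOut M (n - 1) x₀ B k, OmegaSign O

/-- **B44 (WANG + SIGN).** -/
def XGoal : Prop := ∀ n : ℕ, 4 ≤ n → ∀ (M : Type) [MetricSpace M] [CompactSpace M] (ρ : ℝ),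
  0 < ρ → LS.UniqSeg M ρ → Nonempty (M ≃ₜ Sph n) → ∃ B : ℝ, 0 < B ∧
  ∀ (k : Type) [Field k], (2 : k) ≠ 0 → Nonempty (XOut M n B k)

/-- **B22 (S1 + INF + GLUE).** For the dimensions `n ≠ 1` modulo `4`. -/
def PGoal : Prop := ∀ n : ℕ, 4 ≤ n → n % 4 ≠ 1 → ∀ (M : Type) [MetricSpace M]
  [CompactSpace M] (ρ : ℝ), 0 < ρ → LS.UniqSeg M ρ → GM.LOC M → Nonempty (M ≃ₜ Sph n) →
  ∀ G : GeoList M, ∀ B : ℝ, 0 < B → (∀ (k : Type) [Field k], (2 : k) ≠ 0 → Nonempty (XOut M n B k)) →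
  ∃ (K : ℕ) (B0 B1 : ℝ), ∀ p : ℕ, p.Prime → 2 < p → ∃ (k : Type) (_ : Field k),
    Nonempty (T695.PSysB k p (AS.Crit G.ℓ) K B0 B1)

/-- The skeleton of the main theorem (B51). -/
theorem main_of (hX : XGoal) (hP : PGoal)
    {E : Type} [NormedAddCommGroup E] [NormedSpace ℝ E] [FiniteDimensional ℝ E]
    {M : Type} [MetricSpace M] [CompactSpace M] [ChartedSpace E M] [IsManifold 𝓘(ℝ, E) ∞ M]
    [RiemannianBundle (fun x : M => TangentSpace 𝓘(ℝ, E) x)]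
    [IsContMDiffRiemannianBundle 𝓘(ℝ, E) ∞ E (fun x : M => TangentSpace 𝓘(ℝ, E) x)]
    [IsRiemannianManifold 𝓘(ℝ, E) M] {n : ℕ} (hn : 4 ≤ n) (hn4 : n % 4 ≠ 1)
    (e : M ≃ₜ Sph n) : (primeClosedGeodesicImages M).Infinite := by
  intro hfin
  obtain ⟨ρ, hρ, hs, _⟩ := Geo.exists_uniqSeg E M
  obtain ⟨G⟩ := exists_geoList (nonBranching_of_riemannian (E := E) (M := M)) hfin
  have : PreconnectedSpace M := by
    have : PreconnectedSpace (Sph n) := by
      have h : IsPreconnected (Metric.sphere (0 : EuclideanSpace ℝ (Fin (n + 1))) 1) :=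
        isPreconnected_sphere (by
          rw [← Module.finrank_eq_rank, finrank_euclideanSpace, Fintype.card_fin]
          exact_mod_cast (by omega : 1 < n + 1)) _ _
      exact isPreconnected_iff_preconnectedSpace.1 h
    exact e.symm.surjective.denseRange.preconnectedSpace e.symm.continuous
  have hLOC : GM.LOC M := H319.loc (E := E) hρ hs (H844.f4_M E M)
  obtain ⟨B, hB, hX'⟩ := hX n hn M ρ hρ hs ⟨e⟩
  obtain ⟨K, B0, B1, h⟩ := hP n hn hn4 M ρ hρ hs hLOC ⟨e⟩ G B hB hX'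
  have := G.fin
  exact T695.tightEndB G.ℓ G.ℓ_pos K B0 B1 h

end Vale.Agent.P216.B64
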