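import Vale.Agent.P216.B64.Goals

/-!
# Theorem B of P216 for `n = 1` modulo `4`: contract for the self map of degree `-1`
-/

open Set Topology Bundle Manifold
open scoped ContDiff
open Vale.Agent.P216.H494

namespace Vale.Agent.P216.B64

open AS L250 GM

/-- `R` is (up to `ε`) the map `g ↦ f ∘ g` from `XL M s` to `XL M T`. -/
def Approx {M : Type} [MetricSpace M] (f : M → M) (ε s : ℝ) (R : LM M → LM M) : Prop :=
  ∀ g ∈ XL M s, ∀ u, dist (fn (R g) u) (f (fn g u)) ≤ ε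

/-- The action of a self map `f` (of degree `-1`) on the stable cohomology of the free loop space
of an odd dimensional sphere: `x i`, `y i` are multiplied by `(-1) ^ (i + 1)`. -/
def RhoSign {M : Type} [MetricSpace M] {n : ℕ} {B : ℝ} {k : Type} [Field k] (X : XOut M n B k)
    (f : M → M) (ε : ℝ) : Prop :=
  ∀ (s T : ℝ) (R : LM M → LM M) (h : UMap (XL M s) (XL M T) R), 0 ≤ s → 0 ≤ T →
    Approx f ε s R →
    hpull k h 0 (X.g 0 T) = X.g 0 s ∧
    (∀ i, hpull k h _ (X.g (kk n i * (n - 1)) T) = (-1 : k) ^ (i + 1) • X.g (kk n i * (n - 1)) s) ∧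
    ∀ i, hpull k h _ (X.g (kk n i * (n - 1) + 1) T) =
      (-1 : k) ^ (i + 1) • X.g (kk n i * (n - 1) + 1) s

/-- **R2**: topology, for odd `n`. -/
def XRhoGoal : Prop := ∀ n : ℕ, 4 ≤ n → n % 4 = 1 → ∀ (M : Type) [MetricSpace M]
  [CompactSpace M] (ρ : ℝ), 0 < ρ → LS.UniqSeg M ρ → Nonempty (M ≃ₜ Sph n) →
  ∃ (f : C(M, M)) (ε : ℝ) (B : ℝ), 0 < ε ∧ 0 < B ∧
  ∀ (k : Type) [Field k], (2 : k) ≠ 0 → ∃ X : XOut M n B k, RhoSign X f ε

/-- **R1**: algebra (block B22 for `n = 1` modulo `4`). -/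
def PRhoGoal : Prop := ∀ n : ℕ, 4 ≤ n → n % 4 = 1 → ∀ (M : Type) [MetricSpace M]
  [CompactSpace M] (ρ : ℝ), 0 < ρ → LS.UniqSeg M ρ → GM.LOC M → Nonempty (M ≃ₜ Sph n) →
  ∀ G : GeoList M, ∀ (f : C(M, M)) (ε B : ℝ), 0 < ε → 0 < B →
  (∀ (k : Type) [Field k], (2 : k) ≠ 0 → ∃ X : XOut M n B k, RhoSign X f ε) →
  ∃ (K : ℕ) (B0 B1 : ℝ), ∀ p : ℕ, p.Prime → 2 < p → ∃ (k : Type) (_ : Field k),
    Nonempty (T695.PSysB k p (AS.Crit G.ℓ) K B0 B1)

/-- The main theorem, all dimensions `n ≥ 4`. -/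
theorem main_all (hX : XGoal) (hP : PGoal) (hX1 : XRhoGoal) (hP1 : PRhoGoal)
    {E : Type} [NormedAddCommGroup E] [NormedSpace ℝ E] [FiniteDimensional ℝ E]
    {M : Type} [MetricSpace M] [CompactSpace M] [ChartedSpace E M] [IsManifold 𝓘(ℝ, E) ∞ M]
    [RiemannianBundle (fun x : M => TangentSpace 𝓘(ℝ, E) x)]
    [IsContMDiffRiemannianBundle 𝓘(ℝ, E) ∞ E (fun x : M => TangentSpace 𝓘(ℝ, E) x)]
    [IsRiemannianManifold 𝓘(ℝ, E) M] {n : ℕ} (hn : 4 ≤ n)
    (e : M ≃ₜ Sph n) : (primeClosedGeodesicImages M).Infinite := by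
  by_cases h4 : n % 4 = 1
  · intro hfin
    obtain ⟨ρ, hρ, hs, _⟩ := Geo.exists_uniqSeg E M
    obtain ⟨G⟩ := exists_geoList (nonBranching_of_riemannian (E := E) (M := M)) hfin
    have : PreconnectedSpace M := by
      have : PreconnectedSpace (Sph n) := by
        have h : IsPreconnected (Metric.sphere (0 : EuclideanSpace ℝ (Fin (n + 1))) 1) :=
          isPreconnected_sphere (by
            rw [← Module.finrank_eq_rank, finrank_euclideanSpace, Fintype.card_fin]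
            exact_mod_cast (by omega : 1 < n + 1)) _ _
        exact isPreconnected_iff_preconnectedSpace.1 h
      exact e.symm.surjective.denseRange.preconnectedSpace e.symm.continuous
    have hLOC : GM.LOC M := H319.loc (E := E) hρ hs (H844.f4_M E M)
    obtain ⟨f, ε, B, hε, hB, hX'⟩ := hX1 n hn h4 M ρ hρ hs ⟨e⟩
    obtain ⟨K, B0, B1, h⟩ := hP1 n hn h4 M ρ hρ hs hLOC ⟨e⟩ G f ε B hε hB hX'
    have := G.fin
    exact T695.tightEndB G.ℓ G.ℓ_pos K B0 B1 h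
  · exact main_of hX hP (E := E) hn h4 e

end Vale.Agent.P216.B64
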