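import Vale.Agent.P216.T695.IfaceB

set_option linter.unusedSectionVars false

/-!
# P216: the interface, version C

`PSysC` is `PSysB` with the rank and gap conditions only in the degrees `e i` of the classes whose
births are known (for projective spaces other degrees may have classes just below).
-/

open Module

namespace Vale.Agent.P216.T695

open Vale.Agent.P216.AS (USeq chi Crit)
open Vale.Agent.P216.Tight923 (Inv)

/-- What topology delivers for one odd prime `p`, version C: the conditions `rk` and `gap` only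
concern the degrees `e i`. -/
structure PSysC (k : Type) [Field k] (p : ℕ) (crit : Set ℝ) (K : ℕ) (B0 B1 : ℝ) where
  two_ne : (2 : k) ≠ 0
  /-- parity of the degrees `e i` -/
  q : ℕ
  q_lt : q < 2
  H : ℝ → ℕ → Type
  F : ℝ → ℕ → Type
  Hi : ℕ → Type
  Fi : ℕ → Type
  [agH : ∀ t n, AddCommGroup (H t n)]
  [moH : ∀ t n, Module k (H t n)]
  [agF : ∀ t n, AddCommGroup (F t n)]
  [moF : ∀ t n, Module k (F t n)]
  [agHi : ∀ n, AddCommGroup (Hi n)]
  [moHi : ∀ n, Module k (Hi n)]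
  [agFi : ∀ n, AddCommGroup (Fi n)]
  [moFi : ∀ n, Module k (Fi n)]
  /-- Gysin sequence and reversal at the level `t` -/
  G : ∀ t, USeq k (F t) (H t)
  I : ∀ t, Inv (G t)
  /-- localisation -/
  L : ∀ t, 0 < t → t ∉ crit → Loc k (F t) (H (t / p)) (G t).u
  /-- global classes -/
  ui : ∀ n, Fi n →ₗ[k] Fi (n + 2)
  πi : ∀ n, Fi n →ₗ[k] Hi n
  rH : ∀ t n, Hi n →ₗ[k] H t n
  rF : ∀ t n, Fi n →ₗ[k] F t n
  rF_u : ∀ t n x, rF t (n + 2) (ui n x) = (G t).u n (rF t n x)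
  π_rF : ∀ t n x, (G t).π n (rF t n x) = rH t n (πi n x)
  glob : ∀ t (h0 : 0 < t) (h : t ∉ crit) e j x,
    (L t h0 h).ℓ e j (rF t e x) ∈ LinearMap.range (rH (t / p) j)
  lift : ∀ n, n % 2 = q → Function.Surjective (πi n)
  /-- finiteness -/
  finH : ∀ t, 0 < t → t ∉ crit → ∀ n, FiniteDimensional k (H t n)
  topH : ∀ t, 0 < t → t ∉ crit → ∃ N, ∀ n ≥ N, Subsingleton (H t n)
  /-- bounded finite bars (all parities) -/
  bars : ∀ t, 0 < t → t ∉ crit → ∀ m,
    ∑ n ∈ Finset.range m, (finrank k (H t n) - finrank k (LinearMap.range (rH t n))) ≤ K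
  /-- restriction maps -/
  ρH : ∀ s t, s ≤ t → ∀ n, H t n →ₗ[k] H s n
  ρF : ∀ s t, s ≤ t → ∀ n, F t n →ₗ[k] F s n
  ρH_rH : ∀ s t (h : s ≤ t) n x, ρH s t h n (rH t n x) = rH s n x
  ρF_rF : ∀ s t (h : s ≤ t) n x, ρF s t h n (rF t n x) = rF s n x
  ρF_u : ∀ s t (h : s ≤ t) n x, (G s).u n (ρF s t h n x) = ρF s t h (n + 2) ((G t).u n x)
  ρF_r : ∀ s t (h : s ≤ t) n x, (I s).rF n (ρF s t h n x) = ρF s t h n ((I t).rF n x)
  /-- the localisation is natural -/
  ℓ_ρ : ∀ s t (hs0 : 0 < s) (hs : s ∉ crit) (ht0 : 0 < t) (ht : t ∉ crit) (h : s ≤ t)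
    (h' : s / p ≤ t / p) e j x,
    (L s hs0 hs).ℓ e j (ρF s t h e x) = ρH (s / p) (t / p) h' j ((L t ht0 ht).ℓ e j x)
  /-- no critical level between `s` and `t`: the restriction is bijective -/
  reg : ∀ s t (h : s ≤ t), 0 < s → (∀ x ∈ Set.Icc s t, x ∉ crit) →
    ∀ n, Function.Bijective (ρH s t h n)
  /-- at most one critical level between `s` and `t` -/
  rel : ∀ s t (h : s ≤ t), 0 < s → s ∉ crit → t ∉ crit → (crit ∩ Set.Ioo s t).Subsingleton →
    Nonempty (RelSeq k (F t) (F s) (ρF s t h) (I t).rF (I s).rF)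
  /-- degrees of the classes whose births are controlled -/
  e : ℕ → ℕ
  e_mono : StrictMono e
  e_par : ∀ i, e i % 2 = q
  e_ge : ∀ i, 3 ≤ e i
  /-- the global classes of the degrees `e i` form lines -/
  rk : ∀ i, ∀ t, 0 < t → t ∉ crit → finrank k (LinearMap.range (rH t (e i))) ≤ 1
  /-- no global class in the degree just below `e i` -/
  gap : ∀ i, ∀ t, 0 < t → t ∉ crit → rH t (e i) ≠ 0 → rH t (e i - 1) = 0
  /-- births -/
  birth0 : ∀ t, B0 ≤ t → t ∉ crit → rH t (e 0) ≠ 0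
  birth : ∀ i s t, 0 < s → s ∉ crit → t ∉ crit → s + B1 ≤ t →
    rH s (e i) ≠ 0 → rH t (e (i + 1)) ≠ 0

attribute [instance] PSysC.agH PSysC.moH PSysC.agF PSysC.moF PSysC.agHi PSysC.moHi PSysC.agFi
  PSysC.moFi

/-- **The goal C08.** -/
def TightEndC : Prop := ∀ {ι : Type} [Finite ι] (ℓ : ι → ℝ) (_ : ∀ i, 0 < ℓ i) (K : ℕ)
  (B0 B1 : ℝ) (_ : ∀ p : ℕ, p.Prime → 2 < p → ∃ (k : Type) (_ : Field k),
    Nonempty (PSysC k p (Crit ℓ) K B0 B1)), False

end Vale.Agent.P216.T695
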