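import Vale.Agent.P216.B64.Contract

/-!
# Theorem B of P216: output of the topology of the free loop space, general form

`XGen M q e s B k`: in each degree the stable cohomology of the sublevels `XL M t` is a line spanned
by `g n t` (or zero); the reversal acts by `s * (-1) ^ (n / 2)` in the degrees `n` of parity `q`
and by `s * (-1) ^ ((n + 1) / 2)` in the positive degrees of the other parity, trivially in degree
`0`; no class just below a class of parity `q`; births of the classes of degrees `e i`.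
-/

open Set Topology

namespace Vale.Agent.P216.B64

open AS L250 GM

structure XGen (M : Type) [MetricSpace M] (q : ℕ) (e : ℕ → ℕ) (s : ℤ) (B : ℝ) (k : Type)
    [Field k] where
  g : ∀ (n : ℕ) (t : ℝ), HU k (XL M t) n
  res_g : ∀ n s t (h : s ≤ t), hres k (XL_mono h) n (g n t) = g n s
  span : ∀ n t, 0 ≤ t → ∀ (h : XL M t ⊆ XL M (t + B)) (z : HU k (XL M (t + B)) n),
    ∃ c : k, hres k h n z = c • g n t
  /-- reversal -/
  rev_zero : ∀ t, hpull k (umap_rev t) 0 (g 0 t) = g 0 t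
  rev_x : ∀ n t, 0 < n → n % 2 = q →
    hpull k (umap_rev t) n (g n t) = ((s : k) * (-1 : k) ^ (n / 2)) • g n t
  rev_y : ∀ n t, 0 < n → n % 2 ≠ q →
    hpull k (umap_rev t) n (g n t) = ((s : k) * (-1 : k) ^ ((n + 1) / 2)) • g n t
  /-- no class just below a class of parity `q` -/
  gap : ∀ n t t', 2 ≤ n → (n + 1) % 2 = q → g (n + 1) t ≠ 0 → g n t' = 0
  e_mono : StrictMono e
  e_par : ∀ i, e i % 2 = q
  birth0 : ∀ t, B ≤ t → g (e 0) t ≠ 0
  birth : ∀ i t, 0 ≤ t → g (e i) t ≠ 0 → g (e (i + 1)) (t + B) ≠ 0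

/-- the sign `s` of a sphere -/
def sgn4 (n : ℕ) : ℤ := if n % 4 = 0 ∨ n % 4 = 3 then 1 else -1

theorem kk_mono (n : ℕ) : StrictMono (kk n) := by
  intro i j h
  unfold kk
  split_ifs <;> omega

theorem kk_pos (n i : ℕ) : 0 < kk n i := by
  unfold kk
  split_ifs <;> omega

theorem e_odd {n : ℕ} (hn : n % 2 = 1) (i : ℕ) : kk n i * (n - 1) = (i + 1) * (n - 1) := by
  unfold kk
  rw [if_pos hn]

theorem e_even {n : ℕ} (hn : n % 2 = 0) (i : ℕ) : kk n i * (n - 1) = (2 * i + 1) * (n - 1) := by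
  unfold kk
  rw [if_neg (by omega)]

theorem e_strictMono {n : ℕ} (hn : 4 ≤ n) : StrictMono fun i => kk n i * (n - 1) := fun i j h =>
  Nat.mul_lt_mul_of_pos_right (kk_mono n h) (by omega)

theorem e_mod {n : ℕ} (hn : 4 ≤ n) (i : ℕ) : kk n i * (n - 1) % 2 = (n - 1) % 2 := by
  rcases Nat.mod_two_eq_zero_or_one n with h | h
  · rw [e_even h, Nat.mul_mod]
    have : (2 * i + 1) % 2 = 1 := by omega
    rw [this, one_mul, Nat.mod_mod]
  · rw [e_odd h, Nat.mul_mod]
    have : (n - 1) % 2 = 0 := by omega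
    rw [this, mul_zero, Nat.zero_mod]

/-- `x i`: degree, parity, sign. -/
theorem sign_x {n : ℕ} (hn : 4 ≤ n) (h1 : n % 4 ≠ 1) (i : ℕ) (k : Type) [Field k] :
    ((sgn4 n : ℤ) : k) * (-1 : k) ^ (kk n i * (n - 1) / 2) = (-1 : k) ^ (i + 1) := by
  have key : ∀ a b : ℕ, a % 2 = b % 2 → (-1 : k) ^ a = (-1 : k) ^ b := by
    intro a b h
    rcases Nat.even_or_odd a with ha | ha
    · have hb : Even b := by rw [Nat.even_iff] at ha ⊢; omega
      rw [ha.neg_one_pow, hb.neg_one_pow]
    · have hb : Odd b := by rw [Nat.odd_iff] at ha ⊢; omega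
      rw [ha.neg_one_pow, hb.neg_one_pow]
  have hr : n % 4 = 0 ∨ n % 4 = 2 ∨ n % 4 = 3 := by omega
  rcases hr with h | h | h
  · have hs : sgn4 n = 1 := by unfold sgn4; rw [if_pos (Or.inl h)]
    obtain ⟨m, rfl⟩ : ∃ m, n = 4 * m := ⟨n / 4, by omega⟩
    rw [hs, e_even (by omega)]
    simp only [Int.cast_one, one_mul]
    apply key
    have h3 : (2 * i + 1) * (4 * m - 1) = 2 * (i * (4 * m - 1) + (2 * m - 1)) + 1 := by
      obtain ⟨l, hl⟩ : ∃ l, m = l + 1 := ⟨m - 1, by omega⟩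
      subst hl
      have e1 : 4 * (l + 1) - 1 = 4 * l + 3 := by omega
      have e2 : 2 * (l + 1) - 1 = 2 * l + 1 := by omega
      rw [e1, e2]; ring
    rw [h3]
    have h4 : (2 * (i * (4 * m - 1) + (2 * m - 1)) + 1) / 2 = i * (4 * m - 1) + (2 * m - 1) := by
      omega
    rw [h4]
    obtain ⟨l, hl⟩ : ∃ l, m = l + 1 := ⟨m - 1, by omega⟩
    subst hl
    have e1 : 4 * (l + 1) - 1 = 2 * (2 * l + 1) + 1 := by omega
    have e2 : 2 * (l + 1) - 1 = 2 * l + 1 := by omega
    rw [e1, e2]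
    have : i * (2 * (2 * l + 1) + 1) + (2 * l + 1) = 2 * (i * (2 * l + 1) + l) + (i + 1) := by ring
    rw [this]; omega
  · have hs : sgn4 n = -1 := by unfold sgn4; rw [if_neg (by omega)]
    obtain ⟨m, rfl⟩ : ∃ m, n = 4 * m + 2 := ⟨n / 4, by omega⟩
    rw [hs, e_even (by omega)]
    have h3 : (2 * i + 1) * (4 * m + 2 - 1) = 2 * (i * (4 * m + 1) + 2 * m) + 1 := by
      have e1 : 4 * m + 2 - 1 = 4 * m + 1 := by omega
      rw [e1]; ring
    rw [h3]
    have h4 : (2 * (i * (4 * m + 1) + 2 * m) + 1) / 2 = i * (4 * m + 1) + 2 * m := by omega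
    rw [h4]
    have h5 : (-1 : k) ^ (i * (4 * m + 1) + 2 * m) = (-1 : k) ^ i := by
      apply key
      have : i * (4 * m + 1) + 2 * m = 2 * (i * (2 * m) + m) + i := by ring
      rw [this]; omega
    rw [h5, pow_succ]
    push_cast
    ring
  · have hs : sgn4 n = 1 := by unfold sgn4; rw [if_pos (Or.inr h)]
    obtain ⟨m, rfl⟩ : ∃ m, n = 4 * m + 3 := ⟨n / 4, by omega⟩
    rw [hs, e_odd (by omega)]
    simp only [Int.cast_one, one_mul]
    apply key
    have e1 : 4 * m + 3 - 1 = 2 * (2 * m + 1) := by omega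
    rw [e1]
    have h3 : (i + 1) * (2 * (2 * m + 1)) / 2 = (i + 1) * (2 * m + 1) := by
      have : (i + 1) * (2 * (2 * m + 1)) = 2 * ((i + 1) * (2 * m + 1)) := by ring
      rw [this]; omega
    rw [h3]
    have : (i + 1) * (2 * m + 1) = 2 * ((i + 1) * m) + (i + 1) := by ring
    rw [this]; omega

theorem sign_y {n : ℕ} (hn : 4 ≤ n) (h1 : n % 4 ≠ 1) (i : ℕ) (k : Type) [Field k] :
    ((sgn4 n : ℤ) : k) * (-1 : k) ^ ((kk n i * (n - 1) + 1 + 1) / 2) = (-1 : k) ^ i := by
  have h := sign_x hn h1 i k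
  have h2 : (kk n i * (n - 1) + 1 + 1) / 2 = kk n i * (n - 1) / 2 + 1 := by omega
  rw [h2, pow_succ, ← mul_assoc, h, pow_succ]
  ring

/-- The spheres of dimension `n ≠ 1` modulo `4`. -/
def XOut.toXGen {M : Type} [MetricSpace M] {n : ℕ} (hn : 4 ≤ n) (h1 : n % 4 ≠ 1) {B : ℝ}
    {k : Type} [Field k] (X : XOut M n B k) :
    XGen M ((n - 1) % 2) (fun i => kk n i * (n - 1)) (sgn4 n) B k where
  g := X.g
  res_g := X.res_g
  span := X.span
  rev_zero := X.rev_zero
  rev_x m t h0 hm := by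
    by_cases hD : Deg n m
    · rcases hD with rfl | ⟨i, rfl | rfl⟩
      · exact absurd h0 (lt_irrefl _)
      · rw [X.rev_x, sign_x hn h1]
      · have := e_mod hn i
        omega
    · rw [X.g_zero m t hD, map_zero, smul_zero]
  rev_y m t h0 hm := by
    by_cases hD : Deg n m
    · rcases hD with rfl | ⟨i, rfl | rfl⟩
      · exact absurd h0 (lt_irrefl _)
      · exact absurd (e_mod hn i) hm
      · rw [X.rev_y, sign_y hn h1]
    · rw [X.g_zero m t hD, map_zero, smul_zero]
  gap m t t' h2 hm hne := by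
    by_contra h
    have hD1 : Deg n (m + 1) := by
      by_contra h'
      exact hne (X.g_zero _ _ h')
    have hD2 : Deg n m := by
      by_contra h'
      exact h (X.g_zero _ _ h')
    rcases hD1 with h3 | ⟨i, h3 | h3⟩
    · omega
    · rcases hD2 with h4 | ⟨j, h4 | h4⟩
      · omega
      · have := e_mod hn j
        omega
      · have h5 : kk n i * (n - 1) = kk n j * (n - 1) + 2 := by omega
        have h6 : (n - 1) ∣ 2 := by
          have := (Nat.dvd_add_right (Dvd.intro_left (kk n j) rfl)).1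
            (h5 ▸ Dvd.intro_left (kk n i) rfl : (n - 1) ∣ kk n j * (n - 1) + 2)
          exact this
        have := Nat.le_of_dvd (by norm_num) h6
        omega
    · have := e_mod hn i
      omega
  e_mono := e_strictMono hn
  e_par i := e_mod hn i
  birth0 := X.birth0
  birth := X.birth

end Vale.Agent.P216.B64
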