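import Vale.Agent.P216.B64.Goals
import Vale.Agent.P216.B64.XGen
import Vale.Agent.P216.B64.IfaceC

/-!
# P216-C (projective spaces): contract, goals, skeleton of the main theorem
-/

open Set Topology Bundle Manifold
open scoped ContDiff
open Vale.Agent.P216.H494

namespace Vale.Agent.P216.B64

open AS L250 GM

/-- `XGen` with the condition `gap` only in the degrees `e i`. -/
structure XGenC (M : Type) [MetricSpace M] (q : ℕ) (e : ℕ → ℕ) (s : ℤ) (B : ℝ) (k : Type)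
    [Field k] where
  g : ∀ (n : ℕ) (t : ℝ), HU k (XL M t) n
  res_g : ∀ n s t (h : s ≤ t), hres k (XL_mono h) n (g n t) = g n s
  span : ∀ n t, 0 ≤ t → ∀ (h : XL M t ⊆ XL M (t + B)) (z : HU k (XL M (t + B)) n),
    ∃ c : k, hres k h n z = c • g n t
  /-- reversal -/
  rev_zero : ∀ t, hpull k (umap_rev t) 0 (g 0 t) = g 0 t
  rev_x : ∀ n t, 0 < n → n % 2 = q →
    hpull k (umap_rev t) n (g n t) = ((s : k) * (-1 : k) ^ (n / 2)) • g n t
  rev_y : ∀ n t, 0 < n → n % 2 ≠ q →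
    hpull k (umap_rev t) n (g n t) = ((s : k) * (-1 : k) ^ ((n + 1) / 2)) • g n t
  e_mono : StrictMono e
  e_par : ∀ i, e i % 2 = q
  e_ge : ∀ i, 3 ≤ e i
  /-- no class just below the degree `e i` -/
  gap : ∀ i t t', g (e i) t ≠ 0 → g (e i - 1) t' = 0
  birth0 : ∀ t, B ≤ t → g (e 0) t ≠ 0
  birth : ∀ i t, 0 ≤ t → g (e i) t ≠ 0 → g (e (i + 1)) (t + B) ≠ 0

/-- `XGen` with `3 ≤ e i` is a special case. -/
def XGen.toXGenC {M : Type} [MetricSpace M] {q : ℕ} {e : ℕ → ℕ} {s : ℤ} {B : ℝ} {k : Type}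
    [Field k] (X : XGen M q e s B k) (he : ∀ i, 3 ≤ e i) : XGenC M q e s B k where
  g := X.g
  res_g := X.res_g
  span := X.span
  rev_zero := X.rev_zero
  rev_x := X.rev_x
  rev_y := X.rev_y
  e_mono := X.e_mono
  e_par := X.e_par
  e_ge := he
  gap i t t' h := by
    have h3 := he i
    have h4 : e i - 1 + 1 = e i := by omega
    refine X.gap (e i - 1) t t' (by omega) (by rw [h4]; exact X.e_par i) ?_
    rw [h4]
    exact h
  birth0 := X.birth0
  birth := X.birth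

/-- The cohomology of `M` is finite. -/
def FinM (M : Type) [MetricSpace M] : Prop := ∀ (k : Type) [Field k], (2 : k) ≠ 0 →
  (∀ q, Module.Finite k (HU k (Set.univ : Set M) q)) ∧
    ∃ N, ∀ q ≥ N, Subsingleton (HU k (Set.univ : Set M) q)

/-- **C10**: the instance of `PSysC`, from the topology of the free loop space. -/
def PCGoal : Prop := ∀ (M : Type) [MetricSpace M] [CompactSpace M] (ρ : ℝ), 0 < ρ →
  LS.UniqSeg M ρ → GM.LOC M → FinM M → ∀ G : GeoList M, ∀ (e : ℕ → ℕ) (B : ℝ), 0 < B →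
  (∀ (k : Type) [Field k], (2 : k) ≠ 0 → Nonempty (XGenC M 1 e 1 B k)) →
  ∃ (K : ℕ) (B0 B1 : ℝ), ∀ p : ℕ, p.Prime → 2 < p → ∃ (k : Type) (_ : Field k),
    Nonempty (T695.PSysC k p (AS.Crit G.ℓ) K B0 B1)

/-- **C07**: the topology of the free loop space of `M`: `e i` = degrees of the classes
`η W_i`. -/
def XCGoal (M : Type) [MetricSpace M] (e : ℕ → ℕ) : Prop := ∀ ρ : ℝ, 0 < ρ → LS.UniqSeg M ρ →
  ∃ B : ℝ, 0 < B ∧ ∀ (k : Type) [Field k], (2 : k) ≠ 0 → Nonempty (XGenC M 1 e 1 B k)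

/-- The skeleton of the main theorem of P216-C. -/
theorem main_C (hT : T695.TightEndC) (hP : PCGoal)
    {E : Type} [NormedAddCommGroup E] [NormedSpace ℝ E] [FiniteDimensional ℝ E]
    {M : Type} [MetricSpace M] [CompactSpace M] [ChartedSpace E M] [IsManifold 𝓘(ℝ, E) ∞ M]
    [RiemannianBundle (fun x : M => TangentSpace 𝓘(ℝ, E) x)]
    [IsContMDiffRiemannianBundle 𝓘(ℝ, E) ∞ E (fun x : M => TangentSpace 𝓘(ℝ, E) x)]
    [IsRiemannianManifold 𝓘(ℝ, E) M] [PreconnectedSpace M] (hF : FinM M) (e : ℕ → ℕ)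
    (hX : XCGoal M e) : (primeClosedGeodesicImages M).Infinite := by
  intro hfin
  obtain ⟨ρ, hρ, hs, _⟩ := Geo.exists_uniqSeg E M
  obtain ⟨G⟩ := exists_geoList (nonBranching_of_riemannian (E := E) (M := M)) hfin
  have hLOC : GM.LOC M := H319.loc (E := E) hρ hs (H844.f4_M E M)
  obtain ⟨B, hB, hX'⟩ := hX ρ hρ hs
  obtain ⟨K, B0, B1, h⟩ := hP M ρ hρ hs hLOC hF G e B hB hX'
  have := G.fin
  exact hT G.ℓ G.ℓ_pos K B0 B1 h

end Vale.Agent.P216.B64
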