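import Vale.Agent.P216.B609.Main
import Vale.Agent.P216.H754B.XG
import Vale.Agent.P216.H347.Cross

/-!
# Theorem B of P216 for `n ≥ 4`, `n ≠ 1` modulo `4`
-/

open Set Topology Bundle Manifold
open scoped ContDiff
open Vale.Agent.P216.H494

namespace Vale.Agent.P216.B64

theorem xGoal : XGoal := H754B.xGoal_of_cross Vale.Agent.P216.Crs.cross

/-- Theorem B for `n ≥ 4`, `n ≠ 1` modulo `4`. -/
theorem main_ne1
    {E : Type} [NormedAddCommGroup E] [NormedSpace ℝ E] [FiniteDimensional ℝ E]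
    {M : Type} [MetricSpace M] [CompactSpace M] [ChartedSpace E M] [IsManifold 𝓘(ℝ, E) ∞ M]
    [RiemannianBundle (fun x : M => TangentSpace 𝓘(ℝ, E) x)]
    [IsContMDiffRiemannianBundle 𝓘(ℝ, E) ∞ E (fun x : M => TangentSpace 𝓘(ℝ, E) x)]
    [IsRiemannianManifold 𝓘(ℝ, E) M] {n : ℕ} (hn : 4 ≤ n) (hn4 : n % 4 ≠ 1)
    (e : M ≃ₜ Sph n) : (primeClosedGeodesicImages M).Infinite :=
  main_of xGoal DV706.pGoal (E := E) hn hn4 e

end Vale.Agent.P216.B64
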